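import Vale.Agent.P107.System

/-!
Smooth admissible data and global classical solutions of the three-dimensional one-species
relativistic Vlasov-Maxwell system, in Cartesian coordinates.
-/

open MeasureTheory Set
open scoped ContDiff

namespace Vale.Agent.P107.RVM

/-- `F` is a smooth vector field in `L²(ℝ³)`, bounded together with all its partial derivatives
(`s.foldr pd g` is the iterated partial derivative of `g` in the directions of the list `s`). -/
structure IsDataField (F : V3 → V3) : Prop where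
  smooth : ∀ i, ContDiff ℝ ∞ (fun x => F x i)
  bounded : ∀ (i : Fin 3) (s : List (Fin 3)), ∃ C, ∀ x, |s.foldr pd (fun y => F y i) x| ≤ C
  mem_l2 : MemLp F 2 volume

/-- `(f₀, E₀, B₀)` is a smooth admissible datum: `f₀ ∈ C_c^∞(ℝ³ × ℝ³)`, `f₀ ≥ 0`, the fields
`E₀, B₀ ∈ C^∞ ∩ L²` are bounded together with all their derivatives, and `div E₀ = ρ_{f₀}`,
`div B₀ = 0`. -/
structure IsAdmissible (f₀ : V3 → V3 → ℝ) (E₀ B₀ : V3 → V3) : Prop where
  f_smooth : ContDiff ℝ ∞ (fun z : V3 × V3 => f₀ z.1 z.2)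
  f_supp : HasCompactSupport (fun z : V3 × V3 => f₀ z.1 z.2)
  f_nonneg : ∀ x v, 0 ≤ f₀ x v
  E_field : IsDataField E₀
  B_field : IsDataField B₀
  gauss : ∀ x, div E₀ x = ∫ v, f₀ x v
  gauss_mag : ∀ x, div B₀ x = 0

end Vale.Agent.P107.RVM
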